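import Vale.Agent.P284.H416.Src
import Vale.Agent.P272.KOD.Lim
import Vale.Agent.P272.K.Inv.Compact

/-! # P284 (helper416), block B3, part 2: norms of the source, the iteration, sup bounds. -/

open scoped Manifold ContDiff Topology ComplexConjugate ComplexOrder ENNReal
open Filter Set Metric MeasureTheory

noncomputable section

namespace Vale.Agent.P284.H416

open Vale.Agent.P284.H894 Vale.Agent.P272.K Vale.Agent.P272.KOD

variable {n : ℕ} {Γ : Type} [Group Γ]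

/-- A summable weight on the group. -/
structure Wt (C : Coc n Γ) where
  α : Γ → ℝ
  K : ℝ
  summable : Summable α
  nonneg : ∀ γ, 0 ≤ α γ
  one : 1 ≤ α 1
  one_le : 1 ≤ K
  le : ∀ γ, ∀ k ∈ C.N, α (γ * k) ≤ K * α γ

variable {C : Coc n Γ}

lemma Wt.ind_le (W : Wt C) {B : ℝ} (hB : 0 ≤ B) (γ : Γ) :
    {γ : Γ | γ⁻¹ ∈ C.N}.indicator (fun _ => B) γ ≤ W.K ^ 2 * B * W.α γ ^ 2 := by
  have hK := W.one_le
  by_cases h : γ⁻¹ ∈ C.N
  · rw [indicator_of_mem (show γ ∈ {γ : Γ | γ⁻¹ ∈ C.N} from h)]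
    have h1 := W.le γ _ h
    rw [mul_inv_cancel] at h1
    have h2 : 1 ≤ W.K * W.α γ := W.one.trans h1
    have h3 : 1 ≤ (W.K * W.α γ) ^ 2 := one_le_pow₀ h2
    calc B = B * 1 := (mul_one B).symm
      _ ≤ B * (W.K * W.α γ) ^ 2 := mul_le_mul_of_nonneg_left h3 hB
      _ = _ := by ring
  · rw [indicator_of_notMem (show γ ∉ {γ : Γ | γ⁻¹ ∈ C.N} from h)]
    positivity

lemma isOpen_V (C : Coc n Γ) (a : C.I) : IsOpen (C.V a) := isOpen_ball

variable (C) in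
/-- total volume -/
def vol : ℝ := ∑ b, (volume (C.V b)).toReal

variable (C) in
lemma vol_nonneg : 0 ≤ vol C := Finset.sum_nonneg fun _ _ => ENNReal.toReal_nonneg

lemma setLInt_le {b : C.I} {F : Cm n → ℝ} {B : ℝ} (hB : 0 ≤ B) (h : ∀ z ∈ C.V b, F z ≤ B) :
    ∫⁻ z in C.V b, ENNReal.ofReal (F z) ≤ ENNReal.ofReal (vol C * B) := by
  have hfin : volume (C.V b) ≠ ⊤ := measure_ball_lt_top.ne
  calc ∫⁻ z in C.V b, ENNReal.ofReal (F z) ≤ ∫⁻ _ in C.V b, ENNReal.ofReal B :=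
        setLIntegral_mono' (isOpen_V C b).measurableSet fun z hz => ENNReal.ofReal_le_ofReal (h z hz)
    _ = ENNReal.ofReal B * volume (C.V b) := by rw [setLIntegral_const]
    _ = ENNReal.ofReal ((volume (C.V b)).toReal * B) := by
        rw [← ENNReal.ofReal_toReal hfin, ← ENNReal.ofReal_mul hB,
          ENNReal.toReal_ofReal ENNReal.toReal_nonneg]
        congr 1; ring
    _ ≤ _ := by
        apply ENNReal.ofReal_le_ofReal
        apply mul_le_mul_of_nonneg_right _ hB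
        exact Finset.single_le_sum (f := fun b => (volume (C.V b)).toReal)
          (fun _ _ => ENNReal.toReal_nonneg) (Finset.mem_univ b)

section source
variable {m : ℕ} {a₀ : C.I} {K : Set (Cm n)} {f : Cm n → ℂ}

lemma src_nrm (W : Wt C) (w : Wgt C) (hKs : K ⊆ C.V a₀)
    {B : ℝ} (hB : 0 ≤ B) (hb : ∀ z ∈ K, ‖f z‖ ^ 2 * Real.exp (-(m : ℝ) * w.φ a₀ z) ≤ B)
    (γ : Γ) (b : C.I) : nrm n m (w.φ b) (C.V b) (srcF C m a₀ K f γ b) ≤
      ENNReal.ofReal (vol C * (W.K ^ 2 * B) * W.α γ ^ 2) := by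
  have hK := W.one_le
  rw [mul_assoc]
  exact setLInt_le (by positivity) fun z hz =>
    (srcF_dens w hKs hB hb γ hz).trans (W.ind_le hB γ)

lemma src_dnrm (W : Wt C) (w : Wgt C) (hK : IsCompact K) (hKs : K ⊆ C.V a₀)
    (hf : ContDiff ℝ ∞ f) (h0 : ∀ z, z ∉ K → f z = 0) {B : ℝ} (hB : 0 ≤ B)
    (hb : ∀ z ∈ K, (∑ l, ‖dzb l f z‖ ^ 2) * Real.exp (-(m : ℝ) * w.φ a₀ z) ≤ B)
    (γ : Γ) (b : C.I) : dnrm n m (w.φ b) (C.V b) (srcF C m a₀ K f γ b) ≤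
      ENNReal.ofReal (vol C * (W.K ^ 2 * ((n : ℝ) ^ 2 * C.M ^ 2)) * B * W.α γ ^ 2) := by
  have hK1 := W.one_le
  have : vol C * (W.K ^ 2 * ((n : ℝ) ^ 2 * C.M ^ 2)) * B * W.α γ ^ 2 =
      vol C * (W.K ^ 2 * ((n : ℝ) ^ 2 * C.M ^ 2 * B) * W.α γ ^ 2) := by ring
  rw [this]
  exact setLInt_le (by positivity) fun z hz =>
    (srcF_ddens w hK hKs hf h0 hB hb γ hz).trans (W.ind_le (by positivity) γ)

end source

/-- the iteration -/
theorem approx (hB1 : B1Stmt) (hB2 : B2Stmt) (P : PU C) (w : Wgt C) (W : Wt C) :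
    ∃ m₀ : ℕ, 1 ≤ m₀ ∧ ∀ m, m₀ ≤ m → ∀ (σ : SS C m) (A₀ : ℝ), 0 ≤ A₀ →
      (∀ γ a, dnrm n m (w.φ a) (C.V a) (σ.F γ a) ≤ ENNReal.ofReal (A₀ * W.α γ ^ 2)) →
      ∃ s : HS C m, ∀ γ a, nrm n m (w.φ a) (C.V a) (fun z => σ.F γ a z - s.F γ a z) ≤
        ENNReal.ofReal (16 * (A₀ * W.α γ ^ 2)) := by
  obtain ⟨B, hB, hstep⟩ := hB1 n Γ C P w
  have hK := W.one_le
  set c : ℝ := C.N.card * W.K ^ 2 + 1 with hc
  have hc1 : 1 ≤ c := by
    have : (0 : ℝ) ≤ C.N.card * W.K ^ 2 := by positivity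
    linarith
  obtain ⟨m₁, hm₁⟩ := exists_nat_ge (4 * B * c)
  refine ⟨max m₁ 1, le_max_right _ _, fun m hm σ A₀ hA₀ hσ => ?_⟩
  have hm1 : 1 ≤ m := (le_max_right _ _).trans hm
  have hm0 : (0 : ℝ) < m := by exact_mod_cast hm1
  have hBm : B / m * c ≤ 1 / 4 := by
    rw [div_mul_eq_mul_div, div_le_iff₀ hm0]
    have h1 : (m₁ : ℝ) ≤ m := by exact_mod_cast (le_max_left _ _).trans hm
    linarith
  have hBm0 : 0 ≤ B / m := by positivity
  have hBm1 : B / m ≤ 1 / 4 := by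
    refine le_trans ?_ hBm
    exact le_mul_of_one_le_right hBm0 hc1
  set A : Γ → ℝ := fun γ => A₀ * W.α γ ^ 2 with hA
  have hA0 : ∀ γ, 0 ≤ A γ := fun γ => by positivity
  have hAk : ∀ γ, ∀ k ∈ C.N, A (γ * k) ≤ W.K ^ 2 * A γ := by
    intro γ k hk
    have h1 := W.le γ k hk
    have h2 := W.nonneg (γ * k)
    calc A₀ * W.α (γ * k) ^ 2 ≤ A₀ * (W.K * W.α γ) ^ 2 := by gcongr
      _ = W.K ^ 2 * (A₀ * W.α γ ^ 2) := by ring
  have hAs : ∀ γ (t : ℝ), 0 ≤ t → B / m * ∑ k ∈ C.N, A (γ * k) * t ≤ 1 / 4 * (A γ * t) := by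
    intro γ t ht
    have h1 : ∑ k ∈ C.N, A (γ * k) * t ≤ c * (A γ * t) := by
      calc ∑ k ∈ C.N, A (γ * k) * t ≤ ∑ _k ∈ C.N, W.K ^ 2 * A γ * t :=
            Finset.sum_le_sum fun k hk => mul_le_mul_of_nonneg_right (hAk γ k hk) ht
        _ = C.N.card * W.K ^ 2 * (A γ * t) := by
            rw [Finset.sum_const, nsmul_eq_mul]; ring
        _ ≤ c * (A γ * t) := by
            apply mul_le_mul_of_nonneg_right _ (mul_nonneg (hA0 γ) ht)
            linarith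
    calc B / m * ∑ k ∈ C.N, A (γ * k) * t ≤ B / m * (c * (A γ * t)) :=
          mul_le_mul_of_nonneg_left h1 hBm0
      _ = B / m * c * (A γ * t) := by ring
      _ ≤ 1 / 4 * (A γ * t) := mul_le_mul_of_nonneg_right hBm (mul_nonneg (hA0 γ) ht)
  have hstep' : ∀ (k : ℕ) (τ : SS C m),
      (∀ γ a, dnrm n m (w.φ a) (C.V a) (τ.F γ a) ≤ ENNReal.ofReal (A γ * (1 / 4) ^ k)) →
      ∃ (G : Γ → C.I → Cm n → ℂ) (τ' : SS C m),
        (∀ γ a, DifferentiableOn ℂ (G γ a) (C.V a)) ∧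
        (∀ γ a, nrm n m (w.φ a) (C.V a) (fun z => G γ a z - τ.F γ a z) ≤
          ENNReal.ofReal (A γ * (1 / 4) ^ k)) ∧
        (∀ γ a, nrm n m (w.φ a) (C.V a) (fun z => τ'.F γ a z - τ.F γ a z) ≤
          ENNReal.ofReal (A γ * (1 / 4) ^ k)) ∧
        (∀ γ a, dnrm n m (w.φ a) (C.V a) (τ'.F γ a) ≤
          ENNReal.ofReal (A γ * (1 / 4) ^ (k + 1))) := by
    intro k τ hτ
    obtain ⟨G, τ', h1, h2, h3, h4⟩ := hstep m hm1 τ (fun γ => A γ * (1 / 4) ^ k)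
      (fun γ => mul_nonneg (hA0 γ) (by positivity)) hτ
    have h5 : ∀ γ, B / m * ∑ k' ∈ C.N, A (γ * k') * (1 / 4) ^ k ≤ A γ * (1 / 4) ^ (k + 1) := by
      intro γ
      refine (hAs γ ((1 / 4) ^ k) (by positivity)).trans (le_of_eq ?_)
      ring
    have h6 : ∀ γ, A γ * (1 / 4 : ℝ) ^ (k + 1) ≤ A γ * (1 / 4) ^ k := by
      intro γ
      have h7 : 0 ≤ A γ * (1 / 4 : ℝ) ^ k := mul_nonneg (hA0 γ) (by positivity)
      rw [pow_succ, ← mul_assoc]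
      linarith
    refine ⟨G, τ', h1, fun γ a => (h2 γ a).trans (ENNReal.ofReal_le_ofReal ?_),
      fun γ a => (h3 γ a).trans (ENNReal.ofReal_le_ofReal ((h5 γ).trans (h6 γ))),
      fun γ a => (h4 γ a).trans (ENNReal.ofReal_le_ofReal (h5 γ))⟩
    have h7 : 0 ≤ A γ * (1 / 4 : ℝ) ^ k := mul_nonneg (hA0 γ) (by positivity)
    calc B / m * (A γ * (1 / 4) ^ k) ≤ 1 / 4 * (A γ * (1 / 4) ^ k) :=
          mul_le_mul_of_nonneg_right hBm1 h7
      _ ≤ A γ * (1 / 4) ^ k := by linarith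
  choose G τ' hG h1 h2 h3 using hstep'
  let seq : (k : ℕ) → {τ : SS C m // ∀ γ a, dnrm n m (w.φ a) (C.V a) (τ.F γ a) ≤
      ENNReal.ofReal (A γ * (1 / 4) ^ k)} := fun k => Nat.rec
    ⟨σ, fun γ a => by
      rw [pow_zero, mul_one]
      exact hσ γ a⟩
    (fun k s => ⟨τ' k s.1 s.2, h3 k s.1 s.2⟩) k
  obtain ⟨s, hs⟩ := hB2 n Γ C w m (fun k => (seq k).1) (fun k => G k (seq k).1 (seq k).2)
    (fun k γ a => hG k _ _ γ a) A (1 / 4) hA0 (by norm_num) (by norm_num)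
    (fun k γ a => h1 k _ _ γ a) (fun k γ a => h2 k (seq k).1 (seq k).2 γ a)
  refine ⟨s, fun γ a => (hs γ a).trans (ENNReal.ofReal_le_ofReal (le_of_eq ?_))⟩
  have h4 : Real.sqrt (1 / 4) = 1 / 2 := by
    rw [show (1 / 4 : ℝ) = (1 / 2) ^ 2 by norm_num, Real.sqrt_sq (by norm_num)]
  rw [h4, hA]
  norm_num

/-- continuity of the weights on the closed balls -/
lemma contOn_φ (w : Wgt C) (a : C.I) : ContinuousOn (w.φ a) (closedBall (C.c a) (3 * C.r a)) := by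
  intro z hz
  have hz' : z ∈ C.Ω a := closedBall_subset_ball (by have := C.r_pos a; linarith) hz
  exact (w.smooth a z hz').continuousAt.continuousWithinAt

/-- the sup bound on the small balls -/
theorem sup_small (w : Wgt C) (m : ℕ) : ∃ D : ℝ, 0 ≤ D ∧ ∀ (σ : SS C m) (s : HS C m) (γ : Γ)
    (a : C.I) (b₁ b₂ : ℝ), 0 ≤ b₁ → 0 ≤ b₂ →
    nrm n m (w.φ a) (C.V a) (σ.F γ a) ≤ ENNReal.ofReal (b₁ ^ 2) →
    nrm n m (w.φ a) (C.V a) (fun z => σ.F γ a z - s.F γ a z) ≤ ENNReal.ofReal (b₂ ^ 2) →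
    ∀ z ∈ C.W a, ‖s.F γ a z‖ ≤ D * (b₁ + b₂) := by
  have hφ : ∀ a, ∃ B : ℝ, ∀ z ∈ C.V a, (m : ℝ) * w.φ a z ≤ B := by
    intro a
    obtain ⟨B, hB⟩ := (isCompact_closedBall (C.c a) (3 * C.r a)).exists_bound_of_continuousOn
      (contOn_φ w a)
    refine ⟨m * B, fun z hz => mul_le_mul_of_nonneg_left ?_ (Nat.cast_nonneg m)⟩
    exact (Real.le_norm_self _).trans (hB z (ball_subset_closedBall hz))
  choose B hB using hφ
  have h1 : ∀ a, ∃ D : ℝ, 0 ≤ D ∧ ∀ z, ball z (C.r a) ⊆ C.V a → ∀ f : Cm n → ℂ,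
      DifferentiableOn ℂ f (C.V a) →
      ‖f z‖ₑ ≤ ENNReal.ofReal D * Lim.wn (C.V a) (fun z => (m : ℝ) * w.φ a z) f :=
    fun a => Lim.enorm_le_wn (isOpen_V C a) (hB a) (C.r_pos a)
  choose D hD0 hD using h1
  refine ⟨∑ a, D a, Finset.sum_nonneg fun a _ => hD0 a, ?_⟩
  intro σ s γ a b₁ b₂ hb₁ hb₂ hn₁ hn₂ z hz
  have hsub : ball z (C.r a) ⊆ C.V a := by
    intro y hy
    have h2 : dist z (C.c a) < C.r a := hz
    have h3 : dist y z < C.r a := hy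
    have h4 := C.r_pos a
    show dist y (C.c a) < 3 * C.r a
    linarith [dist_triangle y z (C.c a)]
  have h2 := hD a z hsub (s.F γ a) (s.holo γ a)
  have hψ : ContinuousOn (fun z => (m : ℝ) * w.φ a z) (C.V a) :=
    continuousOn_const.mul ((contOn_φ w a).mono ball_subset_closedBall)
  have hσc : ContinuousOn (σ.F γ a) (C.V a) := fun y hy =>
    (σ.smooth γ a y (mem_Ω_of_V C hy)).continuousAt.continuousWithinAt
  have hsc : ContinuousOn (s.F γ a) (C.V a) := (s.holo γ a).continuousOn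
  have h3 : Lim.wn (C.V a) (fun z => (m : ℝ) * w.φ a z) (s.F γ a) ≤
      ENNReal.ofReal (b₁ + b₂) := by
    have e1 : s.F γ a = fun z => σ.F γ a z + (s.F γ a z - σ.F γ a z) := by
      funext y; ring
    rw [e1, ENNReal.ofReal_add hb₁ hb₂]
    have h5 := Lim.wn_le_of_nrm (by positivity) hn₁
    have h6 := Lim.wn_le_of_nrm (by positivity) hn₂
    rw [Real.sqrt_sq hb₁] at h5
    rw [Real.sqrt_sq hb₂, Lim.wn_sub_comm] at h6
    exact (Lim.wn_add_le (isOpen_V C a) hψ hσc (hsc.sub hσc)).trans (add_le_add h5 h6)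
  have h4 : ‖s.F γ a z‖ₑ ≤ ENNReal.ofReal (D a * (b₁ + b₂)) := by
    rw [ENNReal.ofReal_mul (hD0 a)]
    exact h2.trans (mul_le_mul_right h3 _)
  rw [← ofReal_norm] at h4
  have h5 := (ENNReal.ofReal_le_ofReal_iff (mul_nonneg (hD0 a) (add_nonneg hb₁ hb₂))).1 h4
  refine h5.trans (mul_le_mul_of_nonneg_right ?_ (add_nonneg hb₁ hb₂))
  exact Finset.single_le_sum (f := D) (fun a _ => hD0 a) (Finset.mem_univ a)

/-- from the small balls to the middle balls -/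
theorem small_of_W (W : Wt C) {m : ℕ} (s : HS C m) {D : ℝ} (hD : 0 ≤ D)
    (h : ∀ γ a, ∀ z ∈ C.W a, ‖s.F γ a z‖ ≤ D * W.α γ) :
    s.Small fun γ => C.M ^ m * (D * (W.K * W.α γ)) := by
  refine ⟨((W.summable.mul_left _).mul_left _).mul_left _, fun γ a z hz => ?_⟩
  obtain ⟨b, hb, hbW⟩ := C.cover a z (mem_Ω_of_V C hz)
  have hbV : C.T a b z ∈ C.V b := mem_V_of_W C hbW
  rw [s.change γ a b z hb hz hbV, norm_mul, norm_pow]
  have h1 := C.κ_mem a b z hb hz hbV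
  have h2 := C.g_le a b z hb hz hbV
  have h3 := W.le γ _ h1
  have hM := C.M_one
  exact mul_le_mul (pow_le_pow_left₀ (norm_nonneg _) h2 m)
    ((h _ b _ hbW).trans (mul_le_mul_of_nonneg_left h3 hD)) (norm_nonneg _) (by positivity)

end Vale.Agent.P284.H416
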