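import Vale.Agent.P284.H894.SpecSub
import Vale.Agent.P272.KOD.PeakD
import Vale.Agent.P272.KOD.PX1
import Vale.Agent.P272.KOD.Glue

/-! # P284 (helper416), block B3, part 1: the cut-off local section in one piece of the covering. -/

open scoped Manifold ContDiff Topology ComplexConjugate ComplexOrder
open Filter Set Metric MeasureTheory

noncomputable section

namespace Vale.Agent.P284.H416

open Vale.Agent.P284.H894 Vale.Agent.P272.K Vale.Agent.P272.KOD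

variable {n : ℕ} {Γ : Type} [Group Γ]

section cocycle
variable (C : Coc n Γ) {a b d : C.I} {z : Cm n}

lemma O_self_mem (hz : z ∈ C.O a b) : z ∈ C.O a a := by
  rw [C.O_self]; exact C.O_sub a b hz

lemma T_inv (hz : z ∈ C.O a b) : C.T b a (C.T a b z) = z := by
  rw [← C.trans_T a b a z hz (C.T_mem a b z hz), C.T_self a z (O_self_mem C hz)]

lemma mem_O_iff (hz : z ∈ C.O a b) : z ∈ C.O a d ↔ C.T a b z ∈ C.O b d := by
  constructor
  · intro h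
    refine C.trans_mem b a d _ (C.T_mem a b z hz) ?_
    rwa [T_inv C hz]
  · exact C.trans_mem a b d z hz

lemma mem_Ω_of_V (hz : z ∈ C.V a) : z ∈ C.Ω a :=
  ball_subset_ball (by have := C.r_pos a; linarith) hz

lemma mem_V_of_W (hz : z ∈ C.W a) : z ∈ C.V a :=
  ball_subset_ball (by have := C.r_pos a; linarith) hz

lemma T_diffAt (hz : z ∈ C.O a b) : DifferentiableAt ℂ (C.T a b) z :=
  (C.T_holo a b).differentiableAt ((C.O_open a b).mem_nhds hz)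

lemma g_diffAt (hz : z ∈ C.O a b) : DifferentiableAt ℂ (C.g a b) z :=
  (C.g_holo a b).differentiableAt ((C.O_open a b).mem_nhds hz)

lemma T_smoothAt (hz : z ∈ C.O a b) : ContDiffAt ℝ ∞ (C.T a b) z := by
  rw [contDiffAt_pi]
  intro p
  refine contDiffAt_of_holo (C.O_open a b) (F := fun z => C.T a b z p) ?_ hz
  intro y hy
  exact ((differentiableAt_pi.1 (T_diffAt C hy)) p).differentiableWithinAt

lemma g_smoothAt (hz : z ∈ C.O a b) : ContDiffAt ℝ ∞ (C.g a b) z :=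
  contDiffAt_of_holo (C.O_open a b) (C.g_holo a b) hz

/-- the weights cancel the transition functions -/
lemma exp_change (w : Wgt C) (hz : z ∈ C.O a b) (m : ℕ) :
    ‖C.g a b z ^ m‖ ^ 2 * Real.exp (-(m : ℝ) * w.φ a z) =
      Real.exp (-(m : ℝ) * w.φ b (C.T a b z)) := by
  have hd : 0 < ‖C.g a b z‖ ^ 2 := by
    have := norm_pos_iff.2 (C.g_ne a b z hz)
    positivity
  rw [w.change a b z hz, mul_add, Real.exp_add, norm_pow, ← pow_mul, mul_comm m 2, pow_mul]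
  have h2 : Real.exp (-(m : ℝ) * Real.log (‖C.g a b z‖ ^ 2)) =
      ((‖C.g a b z‖ ^ 2) ^ m)⁻¹ := by
    rw [neg_mul, Real.exp_neg, ← Real.log_pow, Real.exp_log (by positivity)]
  rw [h2]
  field_simp

end cocycle

section source
variable (C : Coc n Γ) (m : ℕ) (a₀ : C.I) (K : Set (Cm n)) (f : Cm n → ℂ)

open Classical in
/-- The section which is `f` in the piece `(1, a₀)` (on `K`) and zero elsewhere. -/
def srcF (γ : Γ) (b : C.I) (z : Cm n) : ℂ :=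
  if z ∈ C.O b a₀ ∧ C.T b a₀ z ∈ K ∧ γ * C.κ b a₀ z = 1 then
    C.g b a₀ z ^ m * f (C.T b a₀ z) else 0

variable {C m a₀ K f}

lemma srcF_one (h0 : ∀ z, z ∉ K → f z = 0) {γ : Γ} {b : C.I} {z : Cm n} (hz : z ∈ C.O b a₀)
    (hκ : γ * C.κ b a₀ z = 1) : srcF C m a₀ K f γ b z = C.g b a₀ z ^ m * f (C.T b a₀ z) := by
  unfold srcF
  split_ifs with h
  · rfl
  · have : C.T b a₀ z ∉ K := fun h' => h ⟨hz, h', hκ⟩
    rw [h0 _ this, mul_zero]

lemma srcF_zero {γ : Γ} {b : C.I} {z : Cm n}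
    (h : ¬(z ∈ C.O b a₀ ∧ C.T b a₀ z ∈ K ∧ γ * C.κ b a₀ z = 1)) :
    srcF C m a₀ K f γ b z = 0 := by
  unfold srcF
  rw [if_neg h]

lemma srcF_ev_one (h0 : ∀ z, z ∉ K → f z = 0) {γ : Γ} {b : C.I} {z : Cm n}
    (hz : z ∈ C.O b a₀) (hκ : γ * C.κ b a₀ z = 1) :
    srcF C m a₀ K f γ b =ᶠ[𝓝 z] fun y => C.g b a₀ y ^ m * f (C.T b a₀ y) := by
  filter_upwards [(C.O_open b a₀).mem_nhds hz, C.κ_loc b a₀ z hz] with y hy hyκ
  exact srcF_one h0 hy (by rw [hyκ]; exact hκ)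

lemma srcF_ev_zero (hK : IsCompact K) (hKs : K ⊆ C.V a₀)
    {γ : Γ} {b : C.I} {z : Cm n} (hz : z ∈ C.Ω b)
    (h : ¬(z ∈ C.O b a₀ ∧ C.T b a₀ z ∈ K ∧ γ * C.κ b a₀ z = 1)) :
    srcF C m a₀ K f γ b =ᶠ[𝓝 z] fun _ => 0 := by
  by_cases h1 : z ∈ C.O b a₀ ∧ C.T b a₀ z ∈ K
  · have hκ : γ * C.κ b a₀ z ≠ 1 := fun h2 => h ⟨h1.1, h1.2, h2⟩
    filter_upwards [C.κ_loc b a₀ z h1.1] with y hyκ
    exact srcF_zero (fun h3 => hκ (by rw [← hyκ]; exact h3.2.2))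
  · have h2 := C.closed b a₀ K hK (fun y hy => mem_Ω_of_V C (hKs hy)) z hz h1
    filter_upwards [h2] with y hy
    exact srcF_zero (fun h3 => hy ⟨h3.1, h3.2.1⟩)

variable (C m a₀ K f) in
/-- The section as an element of `SS C m`. -/
def src (hK : IsCompact K) (hKs : K ⊆ C.V a₀) (hf : ContDiff ℝ ∞ f)
    (h0 : ∀ z, z ∉ K → f z = 0) : SS C m where
  F := srcF C m a₀ K f
  smooth γ b z hz := by
    by_cases h : z ∈ C.O b a₀ ∧ C.T b a₀ z ∈ K ∧ γ * C.κ b a₀ z = 1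
    · refine ContDiffAt.congr_of_eventuallyEq ?_ (srcF_ev_one h0 h.1 h.2.2)
      exact ((g_smoothAt C h.1).pow m).mul (hf.contDiffAt.comp z (T_smoothAt C h.1))
    · exact contDiffAt_const.congr_of_eventuallyEq (srcF_ev_zero hK hKs hz h)
  change γ b d z hz := by
    have e1 := mem_O_iff C (d := a₀) hz
    by_cases h1 : z ∈ C.O b a₀
    · have h2 := e1.1 h1
      have e2 := C.trans_T b d a₀ z hz h2
      have e3 := C.trans_g b d a₀ z hz h2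
      have e4 := C.trans_κ b d a₀ z hz h2
      by_cases h3 : γ * C.κ b a₀ z = 1
      · rw [srcF_one h0 h1 h3, srcF_one h0 h2 (by rw [← h3, e4, mul_assoc]), e2, e3]
        ring
      · rw [srcF_zero (fun h => h3 h.2.2),
          srcF_zero (fun h => h3 (by rw [← h.2.2, e4, mul_assoc])), mul_zero]
    · have h2 : C.T b d z ∉ C.O d a₀ := fun h => h1 (e1.2 h)
      rw [srcF_zero (fun h => h1 h.1), srcF_zero (fun h => h2 h.1), mul_zero]

@[simp] lemma src_F (hK : IsCompact K) (hKs : K ⊆ C.V a₀) (hf : ContDiff ℝ ∞ f)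
    (h0 : ∀ z, z ∉ K → f z = 0) (γ : Γ) (b : C.I) (z : Cm n) :
    (src C m a₀ K f hK hKs hf h0).F γ b z = srcF C m a₀ K f γ b z := rfl

/-- in the piece of `a₀` -/
lemma srcF_self (h0 : ∀ z, z ∉ K → f z = 0) {z : Cm n} (hz : z ∈ C.Ω a₀) :
    srcF C m a₀ K f 1 a₀ z = f z := by
  have hz' : z ∈ C.O a₀ a₀ := by rw [C.O_self]; exact hz
  rw [srcF_one h0 hz' (by rw [C.κ_self a₀ z hz', mul_one]), C.g_self a₀ z hz', one_pow, one_mul,
    C.T_self a₀ z hz']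

lemma srcF_self_ne {γ : Γ} (hγ : γ ≠ 1) {z : Cm n} (hz : z ∈ C.Ω a₀) :
    srcF C m a₀ K f γ a₀ z = 0 := by
  have hz' : z ∈ C.O a₀ a₀ := by rw [C.O_self]; exact hz
  refine srcF_zero fun h => hγ ?_
  have := h.2.2
  rwa [C.κ_self a₀ z hz', mul_one] at this

/-- only the pieces `γ` with `γ⁻¹ ∈ N` count -/
lemma srcF_mem (hKs : K ⊆ C.V a₀) {γ : Γ} {b : C.I} {z : Cm n} (hz : z ∈ C.V b)
    (h : z ∈ C.O b a₀ ∧ C.T b a₀ z ∈ K ∧ γ * C.κ b a₀ z = 1) : γ⁻¹ ∈ C.N := by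
  have h1 := C.κ_mem b a₀ z h.1 hz (hKs h.2.1)
  rwa [← inv_eq_of_mul_eq_one_right h.2.2] at h1

/-- pointwise bound of the density of the section -/
lemma srcF_dens (w : Wgt C) (hKs : K ⊆ C.V a₀)
    {B : ℝ} (hB : 0 ≤ B) (hb : ∀ z ∈ K, ‖f z‖ ^ 2 * Real.exp (-(m : ℝ) * w.φ a₀ z) ≤ B)
    (γ : Γ) {b : C.I} {z : Cm n} (hz : z ∈ C.V b) :
    ‖srcF C m a₀ K f γ b z‖ ^ 2 * Real.exp (-(m : ℝ) * w.φ b z) ≤
      {γ : Γ | γ⁻¹ ∈ C.N}.indicator (fun _ => B) γ := by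
  by_cases h : z ∈ C.O b a₀ ∧ C.T b a₀ z ∈ K ∧ γ * C.κ b a₀ z = 1
  · have h1 := srcF_mem hKs hz h
    have h2 : srcF C m a₀ K f γ b z = C.g b a₀ z ^ m * f (C.T b a₀ z) := by
      unfold srcF
      rw [if_pos h]
    rw [indicator_of_mem (show γ ∈ {γ : Γ | γ⁻¹ ∈ C.N} from h1), h2, norm_mul, mul_pow,
      mul_right_comm, exp_change C w h.1, mul_comm]
    exact hb _ h.2.1
  · rw [srcF_zero h]
    have : 0 ≤ {γ : Γ | γ⁻¹ ∈ C.N}.indicator (fun _ => B) γ := indicator_nonneg (fun _ _ => hB) _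
    simpa using this

lemma jmat_le {τ : Cm n → Cm n} {z : Cm n} (h : DifferentiableAt ℂ τ z) {M : ℝ}
    (hM : ‖fderiv ℂ τ z‖ ≤ M) : ∑ l, ∑ p, ‖jmat τ z p l‖ ^ 2 ≤ (n : ℝ) ^ 2 * M ^ 2 := by
  have h1 : ∀ p l, ‖jmat τ z p l‖ ≤ M := by
    intro p l
    rw [jmat_apply h]
    refine (norm_le_pi_norm _ p).trans ?_
    refine ((fderiv ℂ τ z).le_opNorm _).trans ?_
    have : ‖(Pi.single l (1 : ℂ) : Cm n)‖ = 1 := by
      have := Pi.norm_single (G := fun _ : Fin n => ℂ) (i := l) (1 : ℂ)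
      rw [norm_one] at this
      exact this
    rw [this, mul_one]
    exact hM
  calc ∑ l, ∑ p, ‖jmat τ z p l‖ ^ 2 ≤ ∑ _l : Fin n, ∑ _p : Fin n, M ^ 2 :=
        Finset.sum_le_sum fun l _ => Finset.sum_le_sum fun p _ =>
          pow_le_pow_left₀ (norm_nonneg _) (h1 p l) 2
    _ = (n : ℝ) ^ 2 * M ^ 2 := by
        simp only [Finset.sum_const, Finset.card_univ, Fintype.card_fin, nsmul_eq_mul]
        ring

/-- pointwise bound of the density of `∂̄` of the section -/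
lemma srcF_ddens (w : Wgt C) (hK : IsCompact K) (hKs : K ⊆ C.V a₀) (hf : ContDiff ℝ ∞ f)
    (h0 : ∀ z, z ∉ K → f z = 0) {B : ℝ} (hB : 0 ≤ B)
    (hb : ∀ z ∈ K, (∑ l, ‖dzb l f z‖ ^ 2) * Real.exp (-(m : ℝ) * w.φ a₀ z) ≤ B)
    (γ : Γ) {b : C.I} {z : Cm n} (hz : z ∈ C.V b) :
    (∑ l, ‖dzb l (srcF C m a₀ K f γ b) z‖ ^ 2) * Real.exp (-(m : ℝ) * w.φ b z) ≤
      {γ : Γ | γ⁻¹ ∈ C.N}.indicator (fun _ => (n : ℝ) ^ 2 * C.M ^ 2 * B) γ := by
  have hB' : 0 ≤ (n : ℝ) ^ 2 * C.M ^ 2 * B := by positivity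
  by_cases h : z ∈ C.O b a₀ ∧ C.T b a₀ z ∈ K ∧ γ * C.κ b a₀ z = 1
  · have h1 := srcF_mem hKs hz h
    rw [indicator_of_mem (show γ ∈ {γ : Γ | γ⁻¹ ∈ C.N} from h1)]
    have hT := T_diffAt C h.1
    have hfT : DifferentiableAt ℝ f (C.T b a₀ z) := hf.contDiffAt.differentiableAt (by simp)
    have hg : DifferentiableAt ℂ (fun y => C.g b a₀ y ^ m) z := (g_diffAt C h.1).pow m
    have h2 : ∀ l, dzb l (srcF C m a₀ K f γ b) z =
        C.g b a₀ z ^ m * ∑ p, dzb p f (C.T b a₀ z) * cj (jmat (C.T b a₀) z p l) := by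
      intro l
      have hc : DifferentiableAt ℝ (fun y => f (C.T b a₀ y)) z :=
        DifferentiableAt.comp z hfT (hT.restrictScalars ℝ)
      rw [dzb_congr (srcF_ev_one h0 h.1 h.2.2), dzb_mul (hg.restrictScalars ℝ) hc,
        dzb_of_holo hg, zero_mul, zero_add, dzb_comp_holo hfT hT]
    have h3 : ∑ l, ‖dzb l (srcF C m a₀ K f γ b) z‖ ^ 2 = ‖C.g b a₀ z ^ m‖ ^ 2 *
        ∑ l, ‖∑ p, dzb p f (C.T b a₀ z) * cj (jmat (C.T b a₀) z p l)‖ ^ 2 := by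
      rw [Finset.mul_sum]
      refine Finset.sum_congr rfl fun l _ => ?_
      rw [h2, norm_mul, mul_pow]
    have h4 := sum_sq_mulVec_le (fun p => dzb p f (C.T b a₀ z)) (fun p l => jmat (C.T b a₀) z p l)
    have h5 := jmat_le hT (C.T_le b a₀ z h.1 hz (hKs h.2.1))
    have h6 := hb _ h.2.1
    rw [h3, mul_right_comm, exp_change C w h.1, mul_comm]
    calc (∑ l, ‖∑ p, dzb p f (C.T b a₀ z) * cj (jmat (C.T b a₀) z p l)‖ ^ 2) *
          Real.exp (-(m : ℝ) * w.φ a₀ (C.T b a₀ z))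
        ≤ (((n : ℝ) ^ 2 * C.M ^ 2) * ∑ p, ‖dzb p f (C.T b a₀ z)‖ ^ 2) *
          Real.exp (-(m : ℝ) * w.φ a₀ (C.T b a₀ z)) := by
          refine mul_le_mul_of_nonneg_right (h4.trans ?_) (Real.exp_pos _).le
          exact mul_le_mul_of_nonneg_right h5 (by positivity)
      _ = ((n : ℝ) ^ 2 * C.M ^ 2) * ((∑ p, ‖dzb p f (C.T b a₀ z)‖ ^ 2) *
          Real.exp (-(m : ℝ) * w.φ a₀ (C.T b a₀ z))) := by ring
      _ ≤ (n : ℝ) ^ 2 * C.M ^ 2 * B := mul_le_mul_of_nonneg_left h6 (by positivity)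
  · have h2 : ∀ l, dzb l (srcF C m a₀ K f γ b) z = 0 := by
      intro l
      rw [dzb_congr (srcF_ev_zero hK hKs (mem_Ω_of_V C hz) h), dzb_const]
    have : 0 ≤ {γ : Γ | γ⁻¹ ∈ C.N}.indicator (fun _ => (n : ℝ) ^ 2 * C.M ^ 2 * B) γ :=
      indicator_nonneg (fun _ _ => hB') _
    simpa [h2] using this

end source

end Vale.Agent.P284.H416
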